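import Vale.Agent.P352W.Fk.Def

/-! # P352W EB: the words of the energy bounds -/

set_option linter.all false

open MeasureTheory

namespace Vale.Agent.P352W.Eb

open Vale.Agent.P352.GF Vale.Agent.P352W.Cn Vale.Agent.P352W.Fk

noncomputable section

/-- the energy of a configuration -/
def En (σ : Multiset V) : ℝ := (σ.map fun p => p o).sum

/-- the graph norm of the energy -/
def NE (ψ : Wf) : ℝ := √(∫ c, (1 + En (mu c)) ^ 2 * ‖ψ (mu c)‖ ^ 2 ∂Lam)

/-- symbols of two variables which vanish at zero momentum -/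
def Kq (κ : V → V → ℂ) : Prop := Measurable (fun z : V × V => κ z.1 z.2) ∧
  ∀ N, ∃ c, ∀ p q, ‖κ p q‖ * rr (p + q) ^ N ≤ c * ‖p‖ * ‖q‖

theorem En_zero : En 0 = 0 := by simp [En]

theorem En_cons (p : V) (σ : Multiset V) : En (p ::ₘ σ) = p o + En σ := by simp [En]

theorem NE_nn (ψ : Wf) : 0 ≤ NE ψ := Real.sqrt_nonneg _

end

end Vale.Agent.P352W.Eb
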