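import Vale.Agent.P352W.Sp.Spec
import Vale.Agent.P352W.Eb.Defs

/-! # The energy norm is bounded by the generator of the time translations -/

set_option linter.all false

open MeasureTheory Filter Topology
open scoped ENNReal ComplexConjugate Classical Nat

namespace Vale.Agent.P352W.Eb

open Vale.Agent.P352.GF Vale.Agent.P352W.Cn Vale.Agent.P352W.Fk

noncomputable section

namespace G4

theorem en_wt (σ : Multiset V) : |En σ| ≤ wt σ := by
  have h : ∀ σ : Multiset V, |En σ| + 1 ≤ wt σ := fun σ => by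
    induction σ using Multiset.induction_on with
    | empty => simp [En, wt_zero]
    | cons p σ ih =>
      have e : En (p ::ₘ σ) = p o + En σ := by simp [En]
      have h1 : |p o| ≤ ‖p‖ := norm_le_pi_norm p o
      have h2 := abs_add_le (p o) (En σ)
      have h3 := wt_one σ
      have h4 := norm_nonneg p
      rw [e, wt_cons, rr]
      nlinarith
  linarith [h σ]

theorem en_mu (c : Cf) : En (mu c) = tot c o := by
  unfold En tot mu
  rw [sum_ms, Finset.sum_apply]

theorem nice_en {ψ : Wf} (h : Nice ψ) : Nice fun σ => (En σ : ℂ) * ψ σ := by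
  refine ⟨fun n => Measurable.mul ?_ (h.1 n), fun N => (h.2 (N + 1)).elim fun C b =>
    ⟨C, fun σ => le_trans ?_ (b σ)⟩⟩
  · simp only [En, sum_ms]
    fun_prop
  · have := wt_pos σ
    rw [norm_mul, Complex.norm_real, Real.norm_eq_abs, pow_succ, mul_comm |En σ|, mul_assoc,
      mul_comm |En σ|]
    gcongr
    exact en_wt σ

theorem md_bas (p : V) (t : ℝ) : mdot p (bas o t) = p o * t := by
  simp [mdot, bas, eta]

theorem der0 {X : Type} [MeasurableSpace X] {m : Measure X} {e : X → ℝ} {u : X → ℂ}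
    (me : Measurable e) (mu : Measurable u) (i1 : Integrable (fun c => conj (e c * u c) * u c) m)
    (i2 : Integrable (fun c => ‖e c * u c‖ ^ 2) m) :
    HasDerivAt (fun t : ℝ => ∫ c, conj (e c * u c) *
      (Complex.exp (Complex.I * (e c * t : ℝ)) * u c) ∂m)
      (Complex.I * (∫ c, ‖e c * u c‖ ^ 2 ∂m : ℝ)) 0 := by
  have mE : Measurable fun c => (e c : ℂ) := Complex.measurable_ofReal.comp me
  have mχ : Measurable fun c => conj (e c * u c) :=
    Complex.continuous_conj.measurable.comp (mE.mul mu)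
  have mx : ∀ t : ℝ, Measurable fun c => Complex.exp (Complex.I * (e c * t : ℝ)) := fun t =>
    ((Complex.measurable_ofReal.comp (me.mul_const t)).const_mul _).cexp
  have key := hasDerivAt_integral_of_dominated_loc_of_deriv_le (μ := m) (x₀ := (0 : ℝ))
    (s := Set.univ)
    (F := fun t c => conj (e c * u c) * (Complex.exp (Complex.I * (e c * t : ℝ)) * u c))
    (F' := fun t c => conj (e c * u c) *
      (Complex.exp (Complex.I * (e c * t : ℝ)) * (Complex.I * e c) * u c))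
    (bound := fun c => ‖e c * u c‖ ^ 2) univ_mem
    (Eventually.of_forall fun t => (mχ.mul ((mx t).mul mu)).aestronglyMeasurable)
    (by simpa only [mul_zero, Complex.ofReal_zero, Complex.exp_zero, one_mul] using i1)
    (mχ.mul (((mx 0).mul (mE.const_mul _)).mul mu)).aestronglyMeasurable
    (Eventually.of_forall fun c t _ => by
      simp only [norm_mul, Sp.ex_norm, Complex.norm_I, Complex.norm_conj]
      exact le_of_eq (by ring))
    i2
    (Eventually.of_forall fun c t _ => by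
      have a : HasDerivAt (fun t : ℝ => Complex.I * (e c * t : ℝ)) (Complex.I * e c) t := by
        have := ((hasDerivAt_id t).const_mul (e c)).ofReal_comp.const_mul Complex.I
        simpa using this
      exact (a.cexp.mul_const _).const_mul _)
  rw [← integral_complex_ofReal, ← integral_const_mul]
  refine key.2.congr_deriv (integral_congr_ae (Eventually.of_forall fun c => ?_))
  have := Complex.conj_mul' ((e c : ℂ) * u c)
  simp only [mul_zero, Complex.ofReal_zero, Complex.exp_zero, one_mul]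
  push_cast
  rw [← this]
  ring

theorem der {ψ : Wf} (h : Nice ψ) : HasDerivAt
    (fun t : ℝ => ip (fun σ => (En σ : ℂ) * ψ σ) (gm 1 one (bas o t) ψ))
    (Complex.I * (‖toL fun σ => (En σ : ℂ) * ψ σ‖ ^ 2 : ℝ)) 0 := by
  have hχ := nice_en h
  have hm : MemLp (fun c => (En (mu c) : ℂ) * ψ (mu c)) 2 Lam :=
    Nice.memLp (ψ := fun σ => (En σ : ℂ) * ψ σ) hχ
  have hw := (memLp_two_iff_integrable_sq_norm hm.1).1 hm
  have mE : Measurable fun c => En (mu c) := by
    simp only [en_mu]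
    exact (measurable_pi_apply o).comp meas_tot
  have i1 : Integrable (fun c => conj ((En (mu c) : ℂ) * ψ (mu c)) * ψ (mu c)) Lam :=
    Nice.int (ψ := fun σ => conj ((En σ : ℂ) * ψ σ) * ψ σ) (hχ.conj.mul h)
  have mψ : Measurable fun c => ψ (mu c) := h.1.meas1
  have e1 : (fun t : ℝ => ip (fun σ => (En σ : ℂ) * ψ σ) (gm 1 one (bas o t) ψ)) =
      fun t : ℝ => ∫ c, conj ((En (mu c) : ℂ) * ψ (mu c)) *
        (Complex.exp (Complex.I * (En (mu c) * t : ℝ)) * ψ (mu c)) ∂Lam := by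
    funext t
    unfold ip lam
    simp only [gm_tr, md_bas, en_mu]
  rw [e1, norm_sq_toL (ψ := fun σ => (En σ : ℂ) * ψ σ) hm]
  exact der0 mE mψ i1 hw

theorem ne_fn {ψ : Wf} (h : Nice ψ) : NE ψ ≤ ‖toL ψ‖ + ‖toL fun σ => (En σ : ℂ) * ψ σ‖ := by
  have hχ := nice_en h
  refine le_trans (le_of_eq ?_) (norm_add_le _ _)
  rw [← toL_add h hχ, ← Real.sqrt_sq (norm_nonneg (toL _)), norm_sq_toL (h.add hχ).memLp]
  refine congrArg Real.sqrt (integral_congr_ae (Eventually.of_forall fun c => ?_))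
  have : ψ (mu c) + (En (mu c) : ℂ) * ψ (mu c) = ((1 + En (mu c) : ℝ) : ℂ) * ψ (mu c) := by
    push_cast
    ring
  simp only [Pi.add_apply, this, norm_mul, mul_pow, Complex.norm_real, Real.norm_eq_abs, sq_abs]

theorem lin {E : Type*} [NormedAddCommGroup E] [InnerProductSpace ℂ E] {u : ℝ → E} {y : E}
    (h : HasDerivAt u y 0) (L : E →L[ℂ] ℂ) : HasDerivAt (fun t => L (u t)) (L y) 0 :=
  (L.restrictScalars ℝ).hasFDerivAt.comp_hasDerivAt 0 h

theorem rep_spec (hN : ∀ ψ, Wd ψ → Nice ψ) (v : D) : Wd (rep v) ∧ toL (rep v) = v.1 := by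
  have hv := isD_all hN v
  unfold rep
  rw [dif_pos hv]
  exact hv.choose_spec

theorem mk_val {ψ : Wf} (h : Wd ψ) : (Fk.mk ψ).1 = toL ψ := by
  unfold Fk.mk
  rw [dif_pos h]

end G4

open G4

/-- the energy norm is bounded by the graph norm of the generator -/
theorem ne_le (hN : ∀ ψ, Wd ψ → Nice ψ) (hU : ∀ a ψ, Wd ψ → Wd (gm 1 one a ψ)) (v y : D)
    (h : HasDerivAt (fun t : ℝ => UU 1 one (bas o t) v) y 0) : NE (rep v) ≤ ‖v‖ + ‖y‖ := by
  obtain ⟨hr, e⟩ := rep_spec hN v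
  have hψ := hN _ hr
  have hχ := nice_en hψ
  have h1 := lin h ((innerSL ℂ (toL fun σ => (En σ : ℂ) * rep v σ)).comp D0.subtypeL)
  have e1 : (fun t : ℝ => ((innerSL ℂ (toL fun σ => (En σ : ℂ) * rep v σ)).comp D0.subtypeL)
      (UU 1 one (bas o t) v)) =
      fun t : ℝ => ip (fun σ => (En σ : ℂ) * rep v σ) (gm 1 one (bas o t) (rep v)) := by
    funext t
    rw [← inner_toL hχ (hN _ (hU _ _ hr)), ← mk_val (hU _ _ hr)]
    rfl
  rw [e1] at h1
  have h2 := congrArg norm ((der hψ).unique h1)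
  have h3 := norm_inner_le_norm (𝕜 := ℂ) (toL fun σ => (En σ : ℂ) * rep v σ) y.1
  have h4 : ‖toL fun σ => (En σ : ℂ) * rep v σ‖ ^ 2 ≤
      ‖toL fun σ => (En σ : ℂ) * rep v σ‖ * ‖y‖ := by
    rw [norm_mul, Complex.norm_I, one_mul, Complex.norm_real, Real.norm_eq_abs,
      abs_of_nonneg (sq_nonneg _)] at h2
    exact h2.trans_le h3
  have h5 : ‖toL fun σ => (En σ : ℂ) * rep v σ‖ ≤ ‖y‖ := by
    by_contra hc
    have := norm_nonneg y
    nlinarith [not_le.1 hc]
  refine (ne_fn hψ).trans (add_le_add (le_of_eq ?_) h5)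
  rw [e]
  rfl

/-- the energy bounds of the fields -/
theorem eb_of (hN : ∀ ψ, Wd ψ → Nice ψ) (hU : ∀ a ψ, Wd ψ → Wd (gm 1 one a ψ))
    (h1 : ∀ f, IsTest f → ∃ C : ℝ, ∀ ψ, Nice ψ → ‖toL (ph (ft f) ψ)‖ ≤ C * NE ψ)
    (h2 : ∀ m n f, IsTest f → ∃ C : ℝ, ∀ ψ, Nice ψ → ‖toL (qq (kT m n f) ψ)‖ ≤ C * NE ψ) :
    ∀ B f, (B = Ph ∨ ∃ m n, B = Tm m n) → IsTest f → ∃ C : ℝ, ∀ v y : D,
      HasDerivAt (fun t : ℝ => UU 1 one (bas o t) v) y 0 → ‖B f v‖ ≤ C * (‖v‖ + ‖y‖) := by
  have k : ∀ (C : ℝ) (v y : D), HasDerivAt (fun t : ℝ => UU 1 one (bas o t) v) y 0 →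
      C * NE (rep v) ≤ |C| * (‖v‖ + ‖y‖) := fun C v y h =>
    mul_le_mul (le_abs_self C) (ne_le hN hU v y h) (Real.sqrt_nonneg _) (abs_nonneg C)
  rintro B f (rfl | ⟨m, n, rfl⟩) hf
  · obtain ⟨C, hC⟩ := h1 f hf
    refine ⟨|C|, fun v y h => le_trans ?_ (k C v y h)⟩
    have hr := (rep_spec hN v).1
    refine le_trans (le_of_eq ?_) (hC _ (hN _ hr))
    rw [← mk_val (Wd.ph hf hr)]
    rfl
  · obtain ⟨C, hC⟩ := h2 m n f hf
    refine ⟨|C|, fun v y h => le_trans ?_ (k C v y h)⟩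
    have hr := (rep_spec hN v).1
    refine le_trans (le_of_eq ?_) (hC _ (hN _ hr))
    rw [← mk_val (Wd.qq m n hf hr)]
    rfl

end

end Vale.Agent.P352W.Eb
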