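import Vale.Agent.P352W.Eb.Defs
import Vale.Agent.P352W.Fk.Cr
import Vale.Agent.P352W.Fk.Bas
import Vale.Agent.P352W.Fk.Mec

/-! # P352W EB1: the energy bound for the free field -/

set_option linter.all false

open MeasureTheory Filter Topology
open scoped ENNReal Classical

namespace Vale.Agent.P352W.Eb

open Vale.Agent.P352.GF Vale.Agent.P352W.Cn Vale.Agent.P352W.Fk

noncomputable section

namespace One

variable {ψ χ : Wf} {h : V → ℂ}

/-- the energy of a particle -/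
def e1 (p : V) : ℝ≥0∞ := ENNReal.ofReal (p o)

/-- the energy of a configuration -/
def EE (σ : Multiset V) : ℝ≥0∞ := (σ.map e1).sum

/-- the square of the graph norm -/
def ne (ψ : Wf) : ℝ≥0∞ := ∫⁻ c, (1 + EE (mu c)) ^ (2 : ℝ) * ‖ψ (mu c)‖ₑ ^ (2 : ℝ) ∂Lam

theorem m_e1 : Measurable e1 := (measurable_pi_apply o).ennreal_ofReal

theorem e1_top (p : V) : e1 p ≠ ⊤ := ENNReal.ofReal_ne_top

theorem e1_ae : ∀ᵐ p ∂Om, e1 p ≠ 0 := om_ae.mono fun p hp => (ENNReal.ofReal_pos.2 hp.1).ne'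

theorem EE_cons (p : V) (σ : Multiset V) : EE (p ::ₘ σ) = e1 p + EE σ := by simp [EE]

theorem EE_ms {n : ℕ} (x : Fin n → V) : EE (ms x) = ∑ i, e1 (x i) := Cr.sum_ms _ _

theorem m_EE (n : ℕ) : Measurable fun x : Fin n → V => EE (ms x) := by
  simp only [EE_ms]
  exact Finset.measurable_sum _ fun i _ => m_e1.comp (measurable_pi_apply i)

theorem m_En (n : ℕ) : Measurable fun x : Fin n → V => En (ms x) := by
  simp only [En, Cr.sum_ms]
  fun_prop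

theorem EE_ae : ∀ᵐ c ∂Lam, 0 ≤ En (mu c) ∧ EE (mu c) = ENNReal.ofReal (En (mu c)) :=
  ae_null.mono fun c hc => by
    rw [mu, EE_ms, En, Cr.sum_ms, ENNReal.ofReal_sum_of_nonneg fun i _ => (hc i).1.le]
    exact ⟨Finset.sum_nonneg fun i _ => (hc i).1.le, rfl⟩

theorem En_le (σ : Multiset V) : |1 + En σ| ≤ wt σ := by
  suffices h : 1 + |En σ| ≤ wt σ from (abs_add_le _ _).trans (by rwa [abs_one])
  induction σ using Multiset.induction_on with
  | empty => simp [En_zero, wt_zero]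
  | cons a σ ih =>
    rw [En_cons, wt_cons]
    have h1 := abs_add_le (a o) (En σ)
    have h2 : |a o| ≤ ‖a‖ := norm_le_pi_norm a o
    have h3 := wt_one σ
    unfold rr
    nlinarith [norm_nonneg a, abs_nonneg (En σ)]

theorem int_NE (a : Nice ψ) : Integrable (fun c => (1 + En (mu c)) ^ 2 * ‖ψ (mu c)‖ ^ 2) Lam := by
  obtain ⟨C, b⟩ := a.2 3
  refine (int_wt.const_mul (C ^ 2)).mono'
    ((((Cr.meas_mu m_En).const_add 1).pow_const 2).mul
      (a.1.meas1.norm.pow_const 2)).aestronglyMeasurable (ae_of_all _ fun c => ?_)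
  have w := wt_one (mu c)
  have h1 : (1 + En (mu c)) ^ 2 ≤ wt (mu c) ^ 2 := sq_le_sq.2 ((En_le _).trans (le_abs_self _))
  have h2 : (‖ψ (mu c)‖ * wt (mu c) ^ 3) ^ 2 ≤ C ^ 2 := pow_le_pow_left₀ (by positivity) (b _) 2
  rw [Real.norm_of_nonneg (by positivity), ← div_eq_mul_inv, le_div_iff₀ (by positivity)]
  refine le_trans ?_ h2
  calc _ ≤ wt (mu c) ^ 2 * ‖ψ (mu c)‖ ^ 2 * wt (mu c) ^ 4 := by gcongr; norm_num
    _ = _ := by ring

theorem ne_eq (a : Nice ψ) : ne ψ = ENNReal.ofReal (NE ψ ^ 2) := by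
  rw [NE, Real.sq_sqrt (integral_nonneg fun c => by positivity),
    ofReal_integral_eq_lintegral_ofReal (int_NE a) (ae_of_all _ fun c => by positivity)]
  refine lintegral_congr_ae (EE_ae.mono fun c hc => ?_)
  have := hc.1
  beta_reduce
  rw [hc.2, ENNReal.ofReal_mul (by positivity), ENNReal.ofReal_pow (by positivity),
    ENNReal.ofReal_pow (norm_nonneg _), ENNReal.ofReal_add zero_le_one this, ENNReal.ofReal_one,
    ofReal_norm_eq_enorm, ENNReal.rpow_two, ENNReal.rpow_two]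

/-- from the bound in `ℝ≥0∞` to the bound of the norms -/
theorem fin {C : ℝ≥0∞} (hC : C ≠ ⊤) (a : Nice ψ) (b : Cr.nn χ ≤ C * ne ψ) :
    ‖toL χ‖ ≤ √C.toReal * NE ψ := by
  by_cases j : MemLp (fun c => χ (mu c)) 2 Lam
  swap
  · rw [toL, dif_neg j, norm_zero]
    exact mul_nonneg (Real.sqrt_nonneg _) (NE_nn ψ)
  rw [ne_eq a] at b
  have := ENNReal.toReal_mono (ENNReal.mul_ne_top hC ENNReal.ofReal_ne_top) b
  rw [ENNReal.toReal_mul, ENNReal.toReal_ofReal (sq_nonneg _)] at this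
  rw [(Cr.norm_toL j).1, ← Real.sqrt_eq_rpow, ← Real.sqrt_sq (NE_nn ψ),
    ← Real.sqrt_mul ENNReal.toReal_nonneg]
  exact Real.sqrt_le_sqrt this

theorem split {a w : ℝ≥0∞} (h0 : w ≠ 0) (h1 : w ≠ ⊤) :
    a = w ^ (2⁻¹ : ℝ) * (a * w⁻¹ ^ (2⁻¹ : ℝ)) := by
  rw [mul_left_comm, ← ENNReal.mul_rpow_of_nonneg _ _ (by norm_num), ENNReal.mul_inv_cancel h0 h1,
    ENNReal.one_rpow, mul_one]

theorem half_two (w : ℝ≥0∞) : (w ^ (2⁻¹ : ℝ)) ^ (2 : ℝ) = w := by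
  rw [← ENNReal.rpow_mul]; norm_num

/-- weighted Cauchy-Schwarz for integrals -/
theorem cs {X : Type*} [MeasurableSpace X] {μ : Measure X} {a w : X → ℝ≥0∞} (ha : AEMeasurable a μ)
    (hw : AEMeasurable w μ) (h : ∀ᵐ x ∂μ, w x ≠ 0 ∧ w x ≠ ⊤) :
    (∫⁻ x, a x ∂μ) ^ (2 : ℝ) ≤ (∫⁻ x, w x ∂μ) * ∫⁻ x, (w x)⁻¹ * a x ^ (2 : ℝ) ∂μ := by
  have := ENNReal.lintegral_mul_le_Lp_mul_Lq μ Real.HolderConjugate.two_two
    (f := fun x => w x ^ (2⁻¹ : ℝ)) (g := fun x => a x * (w x)⁻¹ ^ (2⁻¹ : ℝ))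
    (hw.pow_const _) (ha.mul (hw.inv.pow_const _))
  refine (ENNReal.rpow_le_rpow ((lintegral_congr_ae (h.mono fun x hx => split hx.1 hx.2)).trans_le
    this) zero_le_two).trans_eq ?_
  rw [ENNReal.mul_rpow_of_nonneg _ _ zero_le_two, ← ENNReal.rpow_mul, ← ENNReal.rpow_mul]
  simp only [ENNReal.mul_rpow_of_nonneg _ _ zero_le_two, half_two, mul_comm (a _ ^ (2 : ℝ))]
  norm_num

/-- weighted Cauchy-Schwarz for sums -/
theorem cs_sum {ι : Type} [Fintype ι] {a w : ι → ℝ≥0∞} (h : ∀ x, w x ≠ 0 ∧ w x ≠ ⊤) :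
    (∑ x, a x) ^ (2 : ℝ) ≤ (∑ x, w x) * ∑ x, (w x)⁻¹ * a x ^ (2 : ℝ) := by
  letI : MeasurableSpace ι := ⊤
  have := cs (μ := Measure.count) (a := a) (w := w) measurable_from_top.aemeasurable
    measurable_from_top.aemeasurable (ae_of_all _ h)
  simpa only [lintegral_count, tsum_fintype] using this

/-- the weighted norm of a symbol -/
def s1 (h : V → ℂ) : ℝ≥0∞ := ∫⁻ p, (1 + e1 p) * (e1 p)⁻¹ * ‖h p‖ₑ ^ (2 : ℝ) ∂Om

theorem s1_lt {c : ℝ} (b : Hb 3 c h) : s1 h < ⊤ := by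
  have i : Integrable (fun p : V => c ^ 2 * (p o * (1 + p o) ^ 3)⁻¹) Om := by
    refine Integrable.const_mul ((integrable_om_rad fun r => (r * (1 + r) ^ 3)⁻¹).2 ?_) _
    refine (integrableOn_add_rpow_Ioi_of_lt (a := -3) (c := 0) (m := 1) (by norm_num)
      (by norm_num)).congr_fun (fun r hr => ?_) measurableSet_Ioi
    have hr' : (0 : ℝ) < r := hr
    beta_reduce
    rw [Real.rpow_neg (by positivity), add_comm r 1, mul_inv, ← mul_assoc, mul_inv_cancel₀ hr'.ne',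
      one_mul]
    norm_cast
  refine lt_of_le_of_lt (lintegral_mono_ae ?_) i.2
  filter_upwards [om_ae, om_norm] with p hp hn
  have h0 := hp.1
  have h1 : ‖h p‖ * (1 + p o) ^ 3 ≤ c := le_trans (by
    rw [← hn]; gcongr; unfold rr; linarith) (b p)
  have h2 := pow_le_pow_left₀ (by positivity) h1 2
  rw [e1, ← ENNReal.ofReal_inv_of_pos h0, ← ENNReal.ofReal_one, ← ENNReal.ofReal_add zero_le_one h0.le,
    ENNReal.rpow_two, ← ofReal_norm_eq_enorm, ← ENNReal.ofReal_pow (norm_nonneg _),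
    ← ENNReal.ofReal_mul (by positivity), ← ENNReal.ofReal_mul (by positivity),
    ← ofReal_norm_eq_enorm, Real.norm_of_nonneg (r := c ^ 2 * _) (by positivity)]
  refine ENNReal.ofReal_le_ofReal ?_
  rw [← div_eq_mul_inv (c ^ 2), le_div_iff₀ (by positivity)]
  refine le_trans ?_ h2
  calc _ = ‖h p‖ ^ 2 * (1 + p o) ^ 4 := by field_simp
    _ ≤ ‖h p‖ ^ 2 * (1 + p o) ^ 6 := by gcongr <;> norm_num; exact h0.le
    _ = _ := by ring

theorem one_le_sq (a : ℝ≥0∞) : 1 + a ≤ (1 + a) ^ (2 : ℝ) := by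
  rw [ENNReal.rpow_two, sq]
  exact le_mul_of_one_le_left' le_self_add

/-- the weight of the creation part -/
def Gc (h : V → ℂ) (ψ : Wf) (p : V) (τ : Multiset V) : ℝ≥0∞ :=
  (1 + e1 p) * (e1 p)⁻¹ * ‖h p‖ₑ ^ (2 : ℝ) * ((1 + EE τ) ^ (2 : ℝ) * ‖ψ τ‖ₑ ^ (2 : ℝ))

theorem cr_le (h : V → ℂ) : ∀ᵐ c ∂Lam, ‖dv (fun p => (ci p * h p) • ψ) (mu c)‖ₑ ^ (2 : ℝ) ≤
    ((mu c).map fun p => Gc h ψ p ((mu c).erase p)).sum := ae_null.mono fun ⟨n, x⟩ hc => by
  rw [dv, mu, Cr.sum_ms, Cr.sum_ms]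
  refine (ENNReal.rpow_le_rpow (enorm_sum_le _ _) zero_le_two).trans
    ((cs_sum (w := fun i => e1 (x i)) fun i => ⟨(ENNReal.ofReal_pos.2 (hc i).1).ne', e1_top _⟩).trans ?_)
  rw [Finset.mul_sum, ← EE_ms]
  refine Finset.sum_le_sum fun i _ => ?_
  have m : x i ∈ ms x := by
    unfold ms
    exact Multiset.mem_sum.2 ⟨i, Finset.mem_univ _, Multiset.mem_singleton_self _⟩
  have k : EE (ms x) ≤ (1 + e1 (x i)) * (1 + EE ((ms x).erase (x i))) ^ (2 : ℝ) := by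
    conv_lhs => rw [← Multiset.cons_erase m, EE_cons]
    refine le_trans ?_ (mul_le_mul_right (one_le_sq _) _)
    rw [add_mul, one_mul, mul_add, mul_one, add_comm (e1 _)]
    exact add_le_add le_add_self le_self_add
  rw [Pi.smul_apply, smul_eq_mul, enorm_mul, enorm_mul, ENNReal.mul_rpow_of_nonneg _ _ zero_le_two]
  refine (mul_le_mul' k (mul_le_mul_right (mul_le_mul_left (ENNReal.rpow_le_rpow
    (mul_le_of_le_one_left' (Cr.ci_le _)) zero_le_two) _) _)).trans_eq ?_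
  unfold Gc
  ring

variable (mψ : ∀ n, Measurable fun x : Fin n → V => ψ (ms x))
include mψ

theorem m_ne (n : ℕ) : Measurable fun x : Fin n → V =>
    (1 + EE (ms x)) ^ (2 : ℝ) * ‖ψ (ms x)‖ₑ ^ (2 : ℝ) :=
  (((m_EE n).const_add 1).pow_const _).mul ((mψ n).enorm.pow_const _)

omit mψ in
theorem m_s1 (mh : Measurable h) : Measurable fun p => (1 + e1 p) * (e1 p)⁻¹ * ‖h p‖ₑ ^ (2 : ℝ) :=
  ((m_e1.const_add 1).mul m_e1.inv).mul (mh.enorm.pow_const _)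

theorem m_Gc (mh : Measurable h) (n : ℕ) :
    Measurable fun z : V × (Fin n → V) => Gc h ψ z.1 (ms z.2) :=
  ((m_s1 mh).comp measurable_fst).mul ((m_ne mψ n).comp measurable_snd)

theorem nn_cr (mh : Measurable h) : Cr.nn (dv fun p => (ci p * h p) • ψ) ≤ s1 h * ne ψ :=
  (lintegral_mono_ae (cr_le h)).trans_eq ((Cr.mec (m_Gc mψ mh)).trans
    ((lintegral_congr fun _ => lintegral_mul_const _ (m_s1 mh)).trans
      (lintegral_const_mul _ (Cr.meas_mu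
        (G := fun σ => (1 + EE σ) ^ (2 : ℝ) * ‖ψ σ‖ₑ ^ (2 : ℝ)) (m_ne mψ)))))

/-- the energy as a quadratic form -/
theorem nn_en : ∫⁻ c, ∫⁻ q, e1 q * ‖ψ (q ::ₘ mu c)‖ₑ ^ (2 : ℝ) ∂Om ∂Lam ≤ ne ψ := by
  rw [← Cr.mec (G := fun p τ => e1 p * ‖ψ (p ::ₘ τ)‖ₑ ^ (2 : ℝ)) fun n =>
    (m_e1.comp measurable_fst).mul ((Cr.m_cons mψ n).enorm.pow_const _)]
  refine lintegral_mono fun c => ?_
  rw [Multiset.map_congr rfl fun p hp => by rw [Multiset.cons_erase hp], Multiset.sum_map_mul_right]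
  exact mul_le_mul_left (le_add_self.trans (one_le_sq _)) _

theorem an_le (mh : Measurable h) (c : Cf) : ‖it (fun q => h q • ψ) (mu c)‖ₑ ^ (2 : ℝ) ≤
    s1 h * ∫⁻ q, e1 q * ‖ψ (q ::ₘ mu c)‖ₑ ^ (2 : ℝ) ∂Om := by
  have := ENNReal.lintegral_mul_le_Lp_mul_Lq Om Real.HolderConjugate.two_two
    (f := fun q => ‖h q‖ₑ * (e1 q)⁻¹ ^ (2⁻¹ : ℝ)) (g := fun q => e1 q ^ (2⁻¹ : ℝ) * ‖ψ (q ::ₘ mu c)‖ₑ)
    (mh.enorm.mul (m_e1.inv.pow_const _)).aemeasurable ((m_e1.pow_const _).mul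
    ((Cr.m_cons mψ c.1).comp (measurable_id.prodMk (measurable_const (a := c.2)))).enorm).aemeasurable
  refine (ENNReal.rpow_le_rpow ((enorm_integral_le_lintegral_enorm _).trans
    ((lintegral_congr_ae (e1_ae.mono fun q hq => ?_)).trans_le this)) zero_le_two).trans ?_
  · refine (enorm_mul _ _).trans ?_
    conv_lhs => rw [split (a := ‖h q‖ₑ) hq (e1_top q)]
    simp only [Pi.mul_apply]
    ring
  rw [ENNReal.mul_rpow_of_nonneg _ _ zero_le_two, ← ENNReal.rpow_mul, ← ENNReal.rpow_mul]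
  simp only [ENNReal.mul_rpow_of_nonneg _ _ zero_le_two, half_two]
  rw [show (1 / 2 * 2 : ℝ) = 1 by norm_num, ENNReal.rpow_one, ENNReal.rpow_one]
  refine mul_le_mul_left (lintegral_mono fun q => ?_) _
  rw [mul_comm, mul_assoc]
  exact le_mul_of_one_le_left' le_self_add

theorem nn_an (mh : Measurable h) (f : s1 h ≠ ⊤) : Cr.nn (it fun q => h q • ψ) ≤ s1 h * ne ψ :=
  (lintegral_mono (an_le mψ mh)).trans
    ((lintegral_const_mul' _ _ f).trans_le (mul_le_mul_right (nn_en mψ) _))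

end One

open One

variable {h : V → ℂ}

/-- creation part -/
theorem eb_cr (a : Hs h) :
    ∃ C, ∀ ψ, Nice ψ → ‖toL (dv fun p => (ci p * h p) • ψ)‖ ≤ C * NE ψ :=
  let ⟨_, b⟩ := a.2 3
  ⟨_, fun _ n => fin (s1_lt b).ne n
    (nn_cr (fun k => (n.1 k).comp (measurable_const (a := ()).prodMk measurable_id)) a.1)⟩

/-- annihilation part -/
theorem eb_an (a : Hs h) : ∃ C, ∀ ψ, Nice ψ → ‖toL (it fun q => h (-q) • ψ)‖ ≤ C * NE ψ :=
  let ⟨c, b⟩ := a.2 3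
  have f : s1 (fun q => h (-q)) ≠ ⊤ := (s1_lt (c := c) fun p => by simpa [rr] using b (-p)).ne
  ⟨_, fun _ n => fin f n (nn_an (h := fun q => h (-q))
    (fun k => (n.1 k).comp (measurable_const (a := ()).prodMk measurable_id))
    (a.1.comp measurable_neg) f)⟩

theorem One.nn_add {χ χ' : Wf} (m : Measurable fun c => χ (mu c)) :
    Cr.nn (χ + χ') ≤ 2 * (Cr.nn χ + Cr.nn χ') := by
  unfold Cr.nn
  rw [← lintegral_add_left (m.enorm.pow_const _), ← lintegral_const_mul' _ _ ENNReal.ofNat_ne_top]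
  refine lintegral_mono fun c => (ENNReal.rpow_le_rpow (enorm_add_le _ _) zero_le_two).trans
    ((ENNReal.rpow_add_le_mul_rpow_add_rpow _ _ one_le_two).trans_eq ?_)
  rw [show (2 : ℝ) - 1 = 1 by norm_num, ENNReal.rpow_one]

/-- **EB1** -/
theorem eb_ph (a : Hs h) : ∃ C, ∀ ψ, Nice ψ → ‖toL (ph h ψ)‖ ≤ C * NE ψ := by
  obtain ⟨c, b⟩ := a.2 3
  have f : s1 (fun q => h (-q)) ≠ ⊤ := (s1_lt (c := c) fun p => by simpa [rr] using b (-p)).ne
  refine ⟨_, fun ψ n => fin (C := 2 * (s1 h + s1 fun q => h (-q)))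
    (ENNReal.mul_ne_top ENNReal.ofNat_ne_top (ENNReal.add_ne_top.2 ⟨(s1_lt b).ne, f⟩)) n ?_⟩
  have m := fun k => (n.1 k).comp (measurable_const (a := ()).prodMk measurable_id)
  refine (nn_add (Ms.dv (F := fun (_ : Unit) p => (ci p * h p) • ψ)
    (Ms.smul ((meas_ci.mul a.1).comp measurable_snd) (n.1.at ()))).meas1).trans ?_
  rw [mul_assoc, add_mul]
  exact mul_le_mul_right (add_le_add (nn_cr m a.1)
    (nn_an (h := fun q => h (-q)) m (a.1.comp measurable_neg) f)) _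

end

end Vale.Agent.P352W.Eb
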