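import Vale.Agent.P352W.Eb.Qt
import Vale.Agent.P352W.Eb.One
import Vale.Agent.P352W.Eb.Gen

/-! # P352W EB: the linear energy bounds of the fields (helper95) -/

set_option linter.all false

namespace Vale.Agent.P352W.Eb

open Vale.Agent.P352.GF Vale.Agent.P352W.Cn Vale.Agent.P352W.Fk

/-- **the linear energy bounds** -/
theorem eb (hU : ∀ a ψ, Wd ψ → Wd (gm 1 one a ψ)) :
    ∀ B f, (B = Ph ∨ ∃ m n, B = Tm m n) → IsTest f → ∃ C : ℝ, ∀ v y : D,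
      HasDerivAt (fun t : ℝ => UU 1 one (bas o t) v) y 0 → ‖B f v‖ ≤ C * (‖v‖ + ‖y‖) :=
  eb_of (fun _ => Ct.wd_nice) hU (fun _ hf => eb_ph (Ct.hs_ft hf)) eb_T

end Vale.Agent.P352W.Eb
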