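import Vale.Agent.P352W.Eb.Kit
import Mathlib.Analysis.SpecialFunctions.JapaneseBracket

/-! # P352W EB3: the Schur test for the part which keeps the number of particles (helper95) -/

set_option linter.all false

open MeasureTheory
open scoped ENNReal Classical

namespace Vale.Agent.P352W.Eb

open Vale.Agent.P352.GF Vale.Agent.P352W.Cn Vale.Agent.P352W.Fk

noncomputable section

theorem sp_le (v : V) : ‖sp v‖ ≤ 2 * ‖v‖ := by
  refine le_of_sq_le_sq ?_ (by positivity)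
  have k (i : Ix) : v i * v i ≤ ‖v‖ * ‖v‖ := by
    rw [← abs_mul_abs_self]
    exact mul_self_le_mul_self (abs_nonneg _) (norm_le_pi_norm v i)
  rw [norm_sq_e3, Fin.sum_univ_three]
  simp only [sp_apply]
  nlinarith [k (Fin.succ 0), k (Fin.succ 1), k (Fin.succ 2), sq_nonneg ‖v‖]

/-- the decay -/
def dc (v : V) : ℝ≥0∞ := ENNReal.ofReal (rr v ^ 4)⁻¹

theorem m_dc : Measurable dc := (continuous_rr.measurable.pow_const 4).inv.ennreal_ofReal

theorem sch : ∃ K : ℝ≥0∞, K ≠ ⊤ ∧ ∀ q, ∫⁻ p, ‖p‖ₑ * dc (p - q) ∂Om ≤ K := by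
  have := finite_integral_one_add_norm (E := E3) (μ := volume) (r := (4 : ℕ)) (by simp; norm_num)
  refine ⟨_, ENNReal.mul_ne_top (ENNReal.ofReal_ne_top (r := 16)) this.ne, fun q => ?_⟩
  rw [lintegral_om (F := fun p => ‖p‖ₑ * dc (p - q))
    (measurable_enorm.mul (m_dc.comp (measurable_sub_const q))),
    ← lintegral_sub_right_eq_self (fun x : E3 => ENNReal.ofReal ((1 + ‖x‖) ^ (-((4 : ℕ) : ℝ)))) (sp q),
    ← lintegral_const_mul' _ _ ENNReal.ofReal_ne_top]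
  refine lintegral_mono fun k => ?_
  have a : ‖k - sp q‖ ≤ 2 * ‖cn k - q‖ := sp_le (cn k - q)
  have r := rr_pos (cn k - q)
  have b : (2 * ‖k‖)⁻¹ * ‖k‖ ≤ 1 := by
    rcases (norm_nonneg k).eq_or_lt with h | h
    · simp [← h]
    · rw [inv_mul_le_iff₀ (by positivity)]
      linarith
  simp only [dc]
  rw [← ofReal_norm_eq_enorm, norm_cn, ← mul_assoc, ← ENNReal.ofReal_mul (by positivity),
    ← ENNReal.ofReal_mul (by positivity), ← ENNReal.ofReal_mul (by positivity),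
    Real.rpow_neg (by positivity), Real.rpow_natCast]
  refine ENNReal.ofReal_le_ofReal ((mul_le_of_le_one_left (inv_pos.2 (pow_pos r 4)).le b).trans ?_)
  rw [← div_eq_mul_inv 16, le_div_iff₀ (by positivity), inv_mul_le_iff₀ (by positivity)]
  calc _ ≤ (rr (cn k - q) * 2) ^ 4 := by
        gcongr
        unfold rr
        linarith
    _ = _ := by ring

/-- **the Schur test** -/
theorem schur {b : V → V → ℂ} (mb : Measurable fun z : V × V => b z.1 z.2) {c : ℝ}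
    (hb : ∀ p q, ‖b p q‖ * rr (p - q) ^ 5 ≤ c * ‖p‖ * ‖q‖) : ∃ K : ℝ≥0∞, K ≠ ⊤ ∧ ∀ ψ, Nice ψ →
      Cr.nn (dv fun p => it fun q => b p q • ψ) ≤ K * ne ψ := by
  obtain ⟨K, hK, k⟩ := sch
  set A := ENNReal.ofReal |c| * K with hA
  have fA : A ≠ ⊤ := ENNReal.mul_ne_top ENNReal.ofReal_ne_top hK
  have b0 (p q : V) : ENNReal.ofReal (rr (p - q)) * ‖b p q‖ₑ ≤
      ENNReal.ofReal |c| * ‖p‖ₑ * ‖q‖ₑ * dc (p - q) := by
    have r := rr_pos (p - q)
    simp only [← ofReal_norm_eq_enorm, dc]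
    rw [← ENNReal.ofReal_mul r.le, ← ENNReal.ofReal_mul (by positivity),
      ← ENNReal.ofReal_mul (by positivity), ← ENNReal.ofReal_mul (by positivity)]
    refine ENNReal.ofReal_le_ofReal ?_
    rw [← div_eq_mul_inv, le_div_iff₀ (by positivity)]
    calc _ = ‖b p q‖ * rr (p - q) ^ 5 := by ring
      _ ≤ _ := (hb p q).trans (by gcongr; exact le_abs_self c)
  have r1 (v : V) : 1 ≤ ENNReal.ofReal (rr v) := ENNReal.one_le_ofReal.2 (rr_one v)
  have s1 (p : V) : ∫⁻ q, ‖b p q‖ₑ ∂Om ≤ ‖p‖ₑ * A := by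
    refine le_trans (lintegral_mono fun q => (le_mul_of_one_le_left' (r1 _)).trans ((b0 p q).trans_eq
      (c := ENNReal.ofReal |c| * ‖p‖ₑ * (‖q‖ₑ * dc (q - p))) ?_)) ?_
    · rw [dc, dc, ← rr_neg, neg_sub, mul_assoc]
    · rw [lintegral_const_mul' _ _ (ENNReal.mul_ne_top ENNReal.ofReal_ne_top enorm_ne_top), hA,
        mul_left_comm, mul_assoc]
      gcongr
      exact k p
  have s2 (q : V) (e : ℝ≥0∞) (he : e ≠ ⊤) :
      ∫⁻ p, (‖p‖ₑ + e) * ‖b p q‖ₑ ∂Om ≤ A * (‖q‖ₑ * (1 + (‖q‖ₑ + e))) := by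
    have (p : V) : ‖p‖ₑ + e ≤ (1 + (‖q‖ₑ + e)) * ENNReal.ofReal (rr (p - q)) := by
      have : ‖p‖ₑ ≤ ENNReal.ofReal (rr (p - q)) + ‖q‖ₑ := by
        simp only [← ofReal_norm_eq_enorm]
        rw [← ENNReal.ofReal_add (rr_pos _).le (norm_nonneg _)]
        refine ENNReal.ofReal_le_ofReal ?_
        have := norm_sub_norm_le p q
        unfold rr
        linarith
      rw [add_mul, one_mul]
      exact (add_le_add_left this e).trans ((add_assoc _ _ _).trans_le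
        (add_le_add_right (le_mul_of_one_le_right' (r1 _)) _))
    refine le_trans (lintegral_mono fun p => (mul_le_mul_left (this p) _).trans
      ((mul_assoc _ _ _).trans_le ((mul_le_mul_right (b0 p q) _).trans_eq
        (c := ENNReal.ofReal |c| * (‖q‖ₑ * (1 + (‖q‖ₑ + e))) * (‖p‖ₑ * dc (p - q))) (by ring)))) ?_
    rw [lintegral_const_mul' _ _ (by finiteness), hA, mul_right_comm _ K]
    gcongr
    exact k q
  refine ⟨A * A, ENNReal.mul_ne_top fA fA, fun ψ hψ => ?_⟩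
  have mP := fun n => (Nice.m hψ n).enorm.pow_const (2 : ℝ)
  have mq (τ : Multiset V) : Measurable fun q => ‖ψ (q ::ₘ τ)‖ₑ ^ (2 : ℝ) :=
    ((hψ.1.cons.comp (measurable_const (a := ()).prodMk measurable_id)).par τ).enorm.pow_const _
  have m1 (p : V) : Measurable fun q => ‖b p q‖ₑ :=
    (mb.comp (measurable_const.prodMk measurable_id)).enorm
  refine (cr_le (W := fun p τ => A * ∫⁻ q, ‖b p q‖ₑ * ‖ψ (q ::ₘ τ)‖ₑ ^ (2 : ℝ) ∂Om)
    (fun n => Measurable.const_mul (Measurable.lintegral_prod_right'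
      (f := fun w : (V × (Fin n → V)) × V => ‖b w.1.1 w.2‖ₑ * ‖ψ (w.2 ::ₘ ms w.1.2)‖ₑ ^ (2 : ℝ))
      ((mb.comp (measurable_fst.fst.prodMk measurable_snd)).enorm.mul
        ((m_cons (H := fun σ => ‖ψ σ‖ₑ ^ (2 : ℝ)) mP n).comp
          (measurable_snd.prodMk measurable_fst.snd)))) _) fun p τ => ?_).trans ?_
  · refine (cs (m1 p).aemeasurable ((m1 p).mul (mq τ)).aemeasurable (.of_forall fun q => ?_)).trans ?_
    · show ‖b p q * ψ (q ::ₘ τ)‖ₑ ^ (2 : ℝ) ≤ ‖b p q‖ₑ * (‖b p q‖ₑ * ‖ψ (q ::ₘ τ)‖ₑ ^ (2 : ℝ))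
      rw [enorm_mul, ENNReal.mul_rpow_of_nonneg _ _ zero_le_two, ENNReal.rpow_two, sq, mul_assoc]
    · rw [← mul_assoc]
      exact mul_le_mul_left (s1 p) _
  have mH := fun n => (measurable_const.add (m_ee n)).mul (mP n) (f := fun x => 1 + ee (ms x))
  refine le_trans (b := ∫⁻ c, A * A * ∫⁻ q, ‖q‖ₑ * ((1 + ee (q ::ₘ mu c)) *
    ‖ψ (q ::ₘ mu c)‖ₑ ^ (2 : ℝ)) ∂Om ∂Lam) (lintegral_mono fun c => ?_) ?_
  · have fe : ee (mu c) ≠ ⊤ := by
      rw [mu, ee_ms]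
      exact ENNReal.sum_ne_top.2 fun i _ => enorm_ne_top
    generalize mu c = τ at *
    have e (p : V) : (‖p‖ₑ + ee τ) * (A * ∫⁻ q, ‖b p q‖ₑ * ‖ψ (q ::ₘ τ)‖ₑ ^ (2 : ℝ) ∂Om) =
        A * ∫⁻ q, (‖p‖ₑ + ee τ) * ‖b p q‖ₑ * ‖ψ (q ::ₘ τ)‖ₑ ^ (2 : ℝ) ∂Om := by
      rw [mul_left_comm, ← lintegral_const_mul' _ _ (ENNReal.add_ne_top.2 ⟨enorm_ne_top, fe⟩)]
      simp only [mul_assoc]
    have mm : Measurable fun z : V × V => (‖z.1‖ₑ + ee τ) * ‖b z.1 z.2‖ₑ :=
      (measurable_fst.enorm.add measurable_const).mul mb.enorm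
    simp only [e]
    rw [lintegral_const_mul' _ _ fA, lintegral_lintegral_swap
      (mm.mul ((mq τ).comp measurable_snd)).aemeasurable, mul_assoc A A,
      ← lintegral_const_mul' A (fun q => ‖q‖ₑ * _) fA]
    refine mul_le_mul_right (lintegral_mono fun q => ?_) _
    rw [lintegral_mul_const' _ _ (by finiteness), ee_cons,
      ← mul_assoc _ (1 + _), ← mul_assoc A]
    exact mul_le_mul_left (s2 q _ fe) _
  · rw [lintegral_const_mul' _ _ (ENNReal.mul_ne_top fA fA),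
      an_eq (H := fun σ => (1 + ee σ) * ‖ψ σ‖ₑ ^ (2 : ℝ)) mH]
    refine mul_le_mul_right (lintegral_mono fun c => ?_) _
    rw [sq, mul_assoc]
    exact mul_le_mul_left le_add_self _

/-- **EB3** -/
theorem eb_ca {κ : V → V → ℂ} (h : Kq κ) : ∃ C, ∀ ψ, Nice ψ →
    ‖toL (dv fun p => it fun q => (ci p * (κ p (-q) + κ (-q) p)) • ψ)‖ ≤ C * NE ψ := by
  obtain ⟨c, b⟩ := h.2 5
  obtain ⟨K, hK, k⟩ := schur (b := fun p q => ci p * (κ p (-q) + κ (-q) p)) (c := 2 * c)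
    ((meas_ci.comp measurable_fst).mul ((h.1.comp (measurable_fst.prodMk measurable_snd.neg)).add
      (h.1.comp (measurable_snd.neg.prodMk measurable_fst)))) fun p q => by
      have u := b p (-q)
      have v := b (-q) p
      have r := rr_pos (p - q)
      rw [add_comm (-q)] at v
      rw [← sub_eq_add_neg, norm_neg] at u v
      calc _ ≤ 1 * (‖κ p (-q)‖ + ‖κ (-q) p‖) * rr (p - q) ^ 5 := by
            rw [norm_mul]
            gcongr
            exacts [norm_ci p, norm_add_le _ _]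
        _ ≤ _ := by linarith
  exact ⟨_, fun ψ hψ => fin hK hψ (k ψ hψ)⟩

end

end Vale.Agent.P352W.Eb
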