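import Vale.Agent.P352W.Gl.Th
import Vale.Agent.P352X.EG.Pub
import Vale.Agent.P352X.CL.Pub0

/-!
# P352W: a bosonic theory with a linear energy bound is a graded theory (helper15)
-/

set_option autoImplicit false
set_option linter.all false

open MeasureTheory Filter Topology

noncomputable section

namespace Vale.Agent.P352W.Egr

open P352 GF H246 H15 BW P352X
open P352.ND (PCh)
open UniformSpace (Completion)

variable {D : Type*} [NormedAddCommGroup D] [InnerProductSpace ℂ D] (Q : Theory D)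

theorem t0 : IsTest 0 := ⟨0, rfl⟩

variable {Q} in
theorem f0 {B : Fld D} (h : Q.fld B) : B 0 = 0 := funext fun v => by
  have := Q.lin B 0 0 1 v h t0 t0
  simp only [Pi.zero_apply, mul_zero, add_zero, Complex.ofReal_one, one_smul] at this
  exact left_eq_add.1 this

variable {Q} in
theorem v0 {B : Fld D} (h : Q.fld B) {f : Fn} (hf : IsTest f) : B f 0 = 0 := by
  obtain ⟨C, -, e⟩ := Q.adj B h
  rw [← inner_self_eq_zero (𝕜 := ℂ), e f 0 _ hf, inner_zero_left]

theorem u0 {s : ℝ} {L : Ix → V} (a : V) (hs : 0 < s) (hL : IsLor L) : Q.U s L a 0 = 0 := by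
  rw [← inner_self_eq_zero (𝕜 := ℂ), Q.U_inner s L a 0 0 hs hL, inner_zero_left]

/-- the theory with the field zero -/
def z0 : Theory D :=
  { Q with
    fld := fun B => Q.fld B ∨ B = 0
    bose := fun B => Q.bose B ∨ B = 0
    cyclic := fun S a b => Q.cyclic S a fun A f v h => b A f v (.inl h)
    lin := by
      rintro B f g c v (h | rfl) a b
      exacts [Q.lin B f g c v h a b, by simp]
    cont := by
      rintro B v (h | rfl)
      exacts [Q.cont B v h, continuous_const]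
    adj := by
      rintro B (h | rfl)
      exacts [(Q.adj B h).imp fun _ k => ⟨.inl k.1, k.2⟩, ⟨0, .inr rfl, by simp⟩]
    bose_fld := fun B h => h.imp_left (Q.bose_fld B)
    loc := by
      rintro B C f g v (h | rfl) (k | rfl) a b s
      exacts [Q.loc B C f g v h k a b s, v0 (Q.bose_fld B h) a, (v0 k b).symm, rfl]
    transl := by
      rintro B a f v (h | rfl) b
      exacts [Q.transl B a f v h b, (u0 Q a one_pos isLor_one).symm] }

/-- the linear energy bound -/
def Lb : Prop := ∀ B f, Q.fld B → IsTest f → ∃ C : ℝ, ∀ v y,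
  HasDerivAt (fun t : ℝ => Q.U 1 GF.one (bas o t) v) y 0 → ‖B f v‖ ≤ C * (‖v‖ + ‖y‖)

variable {Q} {T : Ix → Ix → Fld D} {A : (V → V) → D → D}
  {N : Set V → VonNeumannAlgebra (Completion D)}

theorem stress (h : Stress0 Q T) : Stress0 (z0 Q) T :=
  { h with
    bose := fun m n => .inl (h.bose m n)
    charge := by
      rintro F n B f v w a (k | rfl) b c
      · exact h.charge F n B f v w a k b c
      have k := Q.bose_fld _ (h.bose o o)
      have := h.charge F n _ 0 v w a k t0 HasCompactSupport.zero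
      rwa [show pd n 0 = 0 from funext fun x => by simp [pd], f0 k] at this }

theorem pch (hT : Stress0 Q T) (h : PCh Q T A) : PCh (z0 Q) T A := by
  rintro F X B f v w a b (k | rfl) c d
  · exact h F X B f v w a b k c d
  have k := Q.bose_fld _ (hT.bose o o)
  have := h F X _ 0 v w a b k t0 HasCompactSupport.zero
  rwa [f0 k] at this

theorem mfa (h : MfAll Q) : MfAll (z0 Q) := by
  rintro B (k | rfl)
  · obtain ⟨n, C, a, b⟩ := h B k
    exact ⟨n, C, fun i => (a i).imp fun _ c => c.imp fun _ c => c.imp fun _ c =>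
      ⟨⟨fun a => .inl (c.1.1 a), c.1.2⟩, c.2⟩, b⟩
  · exact ⟨0, fun _ => 0, fun i => i.elim0, by simp⟩

theorem fsl (hb : ∀ B, Q.fld B → Q.bose B) (h : FSL Q) : FSL (z0 Q) := by
  rintro B (k | rfl)
  · obtain ⟨F, C, a, b⟩ := h B k
    exact ⟨F, C, fun p => ⟨.inl (a p).1, fun _ => .inl (hb _ (a p).1)⟩, b⟩
  · exact ⟨∅, fun _ => 0, fun _ => ⟨.inr rfl, id⟩, by simp⟩

theorem lng (hb : ∀ B, Q.fld B → Q.bose B) (h : LNm Q A N) : LNg (z0 Q) id A 1 N where
  inv _ := rfl
  herm _ _ := rfl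
  bose _ _ _ _ _ := rfl
  split B k := ⟨B, 0, k.imp_left (hb B), ⟨.inr rfl, by simp⟩, by simp⟩
  anti B C f g v a b c d _ := by
    have z {B : Fld D} (a : Fer (z0 Q) id B) {f} (c : IsTest f) (v) : B f v = 0 := by
      have : (2 : ℂ) • B f v = 0 := by rw [two_smul]; exact add_eq_zero_iff_eq_neg.2 (a.2 f v c)
      simpa using this
    rw [z a c, z b d, neg_zero]
  GU _ _ _ _ _ _ := rfl
  mul s L a s' L' a' b c d e := .inl fun v => h.mul s L a s' L' a' v b c d e
  vac := rfl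
  add := h.add
  der := h.der
  ext _ := rfl
  fld := by
    rintro O B f (k | rfl) a
    exacts [h.fld O B f k a, ⟨0, by simp, by simp [Completion.coe_zero]⟩]
  mono := h.mono
  cov := h.cov
  gam O X a := by simpa using a
  loc a b X c d e k := by
    simp only [one_mul, mul_one, sub_self]
    exact ⟨add_mem (h.loc a b X c d e k) (h.loc a b X c d e k), zero_mem _⟩

theorem ebd (h : Rep Q A) (e : Lb Q) : EBd (z0 Q) := by
  rintro B (k | rfl)
  swap
  · exact ⟨0, fun f _ => ⟨0, by simp⟩⟩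
  refine ⟨1, fun f a => ?_⟩
  obtain ⟨C, c⟩ := e B f k a.1
  refine ⟨|C|, fun v => ?_⟩
  have d := h.der (fun _ => 1) (fun _ => GF.one) (bas o) (fun _ => bas o 1) v rfl rfl
    (funext fun n => by simp [bas]) (fun _ => ⟨one_pos, isLor_one⟩) fun n x => by
      refine HasDerivAt.add_const _ ?_
      by_cases e : n = o
      · simpa [bas, e] using hasDerivAt_id' (0 : ℝ)
      · simpa [bas, e] using hasDerivAt_const (0 : ℝ) (0 : ℝ)
  refine (c v _ d).trans ((mul_le_mul_of_nonneg_right (le_abs_self C) (by positivity)).trans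
    (mul_le_mul_of_nonneg_left (add_le_add le_rfl ?_) (abs_nonneg C)))
  rw [← d.deriv]
  exact Finset.single_le_sum (f := fun m => ‖Dv Q m v‖) (fun _ _ => norm_nonneg _) (Finset.mem_univ o)

/-- **all hypotheses of the graded theorem** -/
theorem gr (hb : ∀ B, Q.fld B → Q.bose B) (hT : Stress0 Q T) (hA : PCh Q T A) (hG : MfAll Q)
    (hF : FSL Q) (hN : LNm Q A N) (hU : L.UVac Q) (e : Lb Q) :
    Stress0 (z0 Q) T ∧ PCh (z0 Q) T A ∧ MfAll (z0 Q) ∧ FSL (z0 Q) ∧ LNg (z0 Q) id A 1 N ∧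
      L.UVac (z0 Q) ∧ EBd (z0 Q) :=
  ⟨stress hT, pch hT hA, mfa hG, fsl hb hF, lng hb hN, hU, ebd hN.toRep e⟩

theorem scalar {φ : Fld D} {d : ℝ} (h : Q.IsScalar φ d) : (z0 Q).IsScalar φ d := ⟨.inl h.1, h.2⟩

/-- the same for the free field -/
theorem gr_free {Ω : D} {φ : Fld D} {U : ℝ → (Ix → V) → V → D → D} (h : Free Ω φ T U)
    (hT : Stress0 h.th T) (hG : MfAll h.th) (hF : FSL h.th) (hN : LNm h.th A N) (hU : L.UVac h.th)
    (e : ∀ B f, Fp φ T B → IsTest f → ∃ C : ℝ, ∀ v y,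
      HasDerivAt (fun t : ℝ => U 1 GF.one (bas o t) v) y 0 → ‖B f v‖ ≤ C * (‖v‖ + ‖y‖)) :
    ∃ (Q : Theory D) (G : D → D) (Γ : Completion D →L[ℂ] Completion D), Q.vac = Ω ∧ Stress0 Q T ∧
      PCh Q T A ∧ MfAll Q ∧ FSL Q ∧ LNg Q G A Γ N ∧ L.UVac Q ∧ EBd Q ∧ Q.IsScalar φ 1 :=
  have k := gr (Q := h.th) (fun _ a => a) hT (h.pch hN.toRep) hG hF hN hU e
  ⟨_, _, _, rfl, k.1, k.2.1, k.2.2.1, k.2.2.2.1, k.2.2.2.2.1, k.2.2.2.2.2.1, k.2.2.2.2.2.2,
    scalar h.scalar⟩

end Vale.Agent.P352W.Egr
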