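import Vale.Agent.P352W.Eb.Defs
import Vale.Agent.P352W.Fk.Cr
import Vale.Agent.P352W.Fk.Bas
import Vale.Agent.P352W.Fk.Mec

/-! # P352W EB: weighted bounds for creation and annihilation (helper95) -/

set_option linter.all false

open MeasureTheory
open scoped ENNReal Classical

namespace Vale.Agent.P352W.Eb

open Vale.Agent.P352.GF Vale.Agent.P352W.Cn Vale.Agent.P352W.Fk

noncomputable section

/-- the energy, as an extended number -/
def ee (σ : Multiset V) : ℝ≥0∞ := (σ.map fun p => ‖p‖ₑ).sum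

/-- the square of the graph norm -/
def ne (ψ : Wf) : ℝ≥0∞ := ∫⁻ c, (1 + ee (mu c)) ^ 2 * ‖ψ (mu c)‖ₑ ^ (2 : ℝ) ∂Lam

theorem ee_cons (p : V) (σ : Multiset V) : ee (p ::ₘ σ) = ‖p‖ₑ + ee σ := by simp [ee]

theorem ee_ms {n : ℕ} (x : Fin n → V) : ee (ms x) = ∑ i, ‖x i‖ₑ := sum_ms _ x

theorem m_ee (n : ℕ) : Measurable fun x : Fin n → V => ee (ms x) := by
  simp only [ee_ms]
  exact Finset.measurable_sum _ fun i _ => (measurable_pi_apply i).enorm

theorem hf (a : ℝ≥0∞) : (a ^ (1 / 2 : ℝ)) ^ (2 : ℝ) = a := by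
  rw [← ENNReal.rpow_mul]
  norm_num

theorem le_hf {a b : ℝ≥0∞} (h : a ^ (2 : ℝ) ≤ b) : a ≤ b ^ (1 / 2 : ℝ) := by
  refine le_trans (le_of_eq ?_) (ENNReal.rpow_le_rpow h (by norm_num))
  rw [← ENNReal.rpow_mul]
  norm_num

/-- Cauchy-Schwarz for integrals -/
theorem cs {X : Type} [MeasurableSpace X] {μ : Measure X} {u v : X → ℝ≥0∞} {f : X → ℂ}
    (hu : AEMeasurable u μ) (hv : AEMeasurable v μ) (h : ∀ᵐ x ∂μ, ‖f x‖ₑ ^ (2 : ℝ) ≤ u x * v x) :
    ‖∫ x, f x ∂μ‖ₑ ^ (2 : ℝ) ≤ (∫⁻ x, u x ∂μ) * ∫⁻ x, v x ∂μ := by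
  have := ENNReal.lintegral_mul_le_Lp_mul_Lq μ Real.HolderConjugate.two_two
    (hu.pow_const (1 / 2 : ℝ)) (hv.pow_const (1 / 2 : ℝ))
  simp only [hf] at this
  refine (ENNReal.rpow_le_rpow ((enorm_integral_le_lintegral_enorm _).trans
    ((lintegral_mono_ae (h.mono fun x hx => ?_)).trans this)) zero_le_two).trans_eq ?_
  · rw [Pi.mul_apply, ← ENNReal.mul_rpow_of_nonneg _ _ (by norm_num)]
    exact le_hf hx
  · rw [ENNReal.mul_rpow_of_nonneg _ _ zero_le_two, hf, hf]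

variable {F : V → Wf} {W : V → Multiset V → ℝ≥0∞} {H : Multiset V → ℝ≥0∞} {ψ χ : Wf}

theorem cr_pt (h : ∀ p τ, ‖F p τ‖ₑ ^ (2 : ℝ) ≤ ‖p‖ₑ * W p τ) (c : Cf) :
    ‖dv F (mu c)‖ₑ ^ (2 : ℝ) ≤ ((mu c).map fun p =>
      (‖p‖ₑ + ee ((mu c).erase p)) * W p ((mu c).erase p)).sum := by
  rw [Multiset.map_congr rfl fun p hp => by rw [← ee_cons, Multiset.cons_erase hp],
    Multiset.sum_map_mul_left]
  obtain ⟨m, x⟩ := c
  have := ENNReal.inner_le_Lp_mul_Lq Finset.univ (fun i => ‖x i‖ₑ ^ (1 / 2 : ℝ))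
    (fun i => W (x i) ((ms x).erase (x i)) ^ (1 / 2 : ℝ)) Real.HolderConjugate.two_two
  simp only [hf] at this
  rw [dv, mu, ee_ms, sum_ms, sum_ms]
  refine (ENNReal.rpow_le_rpow ((enorm_sum_le _ _).trans ((Finset.sum_le_sum fun i _ => ?_).trans
    this)) zero_le_two).trans_eq ?_
  · rw [← ENNReal.mul_rpow_of_nonneg _ _ (by norm_num)]
    exact le_hf (h _ _)
  · rw [ENNReal.mul_rpow_of_nonneg _ _ zero_le_two, hf, hf]

/-- **creation** -/
theorem cr_le (m : ∀ n, Measurable fun z : V × (Fin n → V) => W z.1 (ms z.2))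
    (h : ∀ p τ, ‖F p τ‖ₑ ^ (2 : ℝ) ≤ ‖p‖ₑ * W p τ) :
    Cr.nn (dv F) ≤ ∫⁻ c, ∫⁻ p, (‖p‖ₑ + ee (mu c)) * W p (mu c) ∂Om ∂Lam :=
  (lintegral_mono (cr_pt h)).trans_eq (Cr.mec (G := fun p τ => (‖p‖ₑ + ee τ) * W p τ) fun n =>
    (measurable_fst.enorm.add ((m_ee n).comp measurable_snd)).mul (m n))

theorem m_cons (m : ∀ n, Measurable fun x : Fin n → V => H (ms x)) (n : ℕ) :
    Measurable fun z : V × (Fin n → V) => H (z.1 ::ₘ ms z.2) := by
  simp only [← ms_cons]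
  exact (m (n + 1)).comp meas_cons

/-- **annihilation** -/
theorem an_eq (m : ∀ n, Measurable fun x : Fin n → V => H (ms x)) :
    ∫⁻ c, ∫⁻ q, ‖q‖ₑ * H (q ::ₘ mu c) ∂Om ∂Lam = ∫⁻ c, ee (mu c) * H (mu c) ∂Lam := by
  rw [← Cr.mec (G := fun q τ => ‖q‖ₑ * H (q ::ₘ τ)) fun n => measurable_fst.enorm.mul (m_cons m n)]
  refine lintegral_congr fun c => ?_
  rw [Multiset.map_congr rfl fun p hp => by rw [Multiset.cons_erase hp], Multiset.sum_map_mul_right,
    ee]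

theorem Nice.m (h : Nice ψ) (n : ℕ) : Measurable fun x : Fin n → V => ψ (ms x) :=
  (h.1 n).comp (measurable_const (a := ()).prodMk measurable_id)

theorem En_le (σ : Multiset V) : |En σ| ≤ wt σ := by
  induction σ using Multiset.induction_on with
  | empty => simp [En_zero, wt_zero]
  | cons p σ ih =>
    have a : |p o| ≤ ‖p‖ := norm_le_pi_norm p o
    have b := wt_one σ
    have c := abs_add_le (p o) (En σ)
    rw [En_cons, wt_cons, rr]
    nlinarith [norm_nonneg p]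

theorem ee_ae : ∀ᵐ c ∂Lam, 0 ≤ En (mu c) ∧ ee (mu c) = ENNReal.ofReal (En (mu c)) := by
  filter_upwards [ae_null] with c hc
  have e (i) : ‖c.2 i‖ = c.2 i o := by
    have := norm_cn (sp (c.2 i))
    have k := cn_o (sp (c.2 i))
    rw [cn_sp (hc i).1.le (hc i).2] at this k
    rw [this, k]
  rw [mu, ee_ms, En, sum_ms, ENNReal.ofReal_sum_of_nonneg fun i _ => (hc i).1.le]
  exact ⟨Finset.sum_nonneg fun i _ => (hc i).1.le,
    Finset.sum_congr rfl fun i _ => by rw [← e, ofReal_norm_eq_enorm]⟩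

theorem int_ne (h : Nice ψ) :
    Integrable (fun c => (1 + En (mu c)) ^ 2 * ‖ψ (mu c)‖ ^ 2) Lam := by
  obtain ⟨C, b⟩ := h.2 3
  have m : Measurable fun c : Cf => En (mu c) := meas_sig fun n => by
    simp only [mu, En, sum_ms]
    fun_prop
  refine (int_wt.const_mul (4 * C ^ 2)).mono' (((measurable_const.add m).pow_const 2).mul
    (h.1.meas1.norm.pow_const 2)).aestronglyMeasurable (.of_forall fun c => ?_)
  have w := wt_one (mu c)
  have e := abs_le.1 (En_le (mu c))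
  have k := b (mu c)
  rw [Real.norm_of_nonneg (by positivity), ← div_eq_mul_inv, le_div_iff₀ (by positivity)]
  generalize wt (mu c) = t at *
  have n := norm_nonneg (ψ (mu c))
  generalize ‖ψ (mu c)‖ = s at *
  calc _ ≤ (2 * t) ^ 2 * s ^ 2 * t ^ 4 := by
        gcongr ?_ * _ * ?_
        · exact sq_le_sq' (by linarith) (by linarith)
        · exact pow_le_pow_right₀ w (by norm_num)
    _ = 4 * (s * t ^ 3) ^ 2 := by ring
    _ ≤ _ := by gcongr

theorem ne_eq (h : Nice ψ) : ne ψ = ENNReal.ofReal (NE ψ ^ 2) := by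
  have p : 0 ≤ᵐ[Lam] fun c => (1 + En (mu c)) ^ 2 * ‖ψ (mu c)‖ ^ 2 := .of_forall fun c => by
    positivity
  rw [NE, Real.sq_sqrt (integral_nonneg_of_ae p), ofReal_integral_eq_lintegral_ofReal (int_ne h) p]
  refine lintegral_congr_ae (ee_ae.mono fun c hc => ?_)
  have := hc.1
  beta_reduce
  rw [hc.2, ENNReal.ofReal_mul (by positivity), ENNReal.ofReal_pow (by positivity),
    ENNReal.ofReal_add zero_le_one this, ENNReal.ofReal_one, ENNReal.ofReal_pow (norm_nonneg _),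
    ofReal_norm_eq_enorm, ENNReal.rpow_two]

/-- from the bound for the integrals to the bound for the norms -/
theorem fin {K : ℝ≥0∞} (hK : K ≠ ⊤) (h : Nice ψ) (b : Cr.nn χ ≤ K * ne ψ) :
    ‖toL χ‖ ≤ √K.toReal * NE ψ := by
  have := NE_nn ψ
  by_cases j : MemLp (fun c => χ (mu c)) 2 Lam
  swap
  · rw [toL, dif_neg j, norm_zero]
    positivity
  rw [ne_eq h] at b
  have k := ENNReal.toReal_mono (ENNReal.mul_ne_top hK ENNReal.ofReal_ne_top) b
  rw [ENNReal.toReal_mul, ENNReal.toReal_ofReal (sq_nonneg _)] at k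
  rw [(Cr.norm_toL j).1, ← Real.sqrt_eq_rpow, ← Real.sqrt_sq this,
    ← Real.sqrt_mul ENNReal.toReal_nonneg]
  exact Real.sqrt_le_sqrt k

end

end Vale.Agent.P352W.Eb
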