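import Vale.Agent.P352W.Eb.Defs
import Vale.Agent.P352W.Fk.Cr
import Vale.Agent.P352W.Fk.Bas
import Vale.Agent.P352W.Fk.Mec
import Vale.Agent.P352W.Fk.Bd

/-! # P352W EB: energy bounds for the pair creation and pair annihilation parts -/

set_option linter.all false

open MeasureTheory
open scoped ENNReal Classical

namespace Vale.Agent.P352W.Eb

open Vale.Agent.P352.GF Vale.Agent.P352W.Cn Vale.Agent.P352W.Fk
open Vale.Agent.P352.H496 (IsNull)

noncomputable section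

namespace Two

theorem sq_of {x A B : ℝ≥0∞} (h : x ≤ A ^ (1 / 2 : ℝ) * B ^ (1 / 2 : ℝ)) : x ^ 2 ≤ A * B := by
  refine (pow_le_pow_left' h 2).trans_eq ?_
  rw [mul_pow, ← ENNReal.rpow_two, ← ENNReal.rpow_two, ← ENNReal.rpow_mul, ← ENNReal.rpow_mul]
  norm_num

theorem cs_sum (σ : Multiset V) (a b : V → ℝ≥0∞) : (σ.map fun p => a p * b p).sum ^ 2 ≤
    (σ.map fun p => a p ^ 2).sum * (σ.map fun p => b p ^ 2).sum := by
  obtain ⟨n, x, rfl⟩ := exists_ms σ
  rw [sum_ms, sum_ms, sum_ms]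
  have h := ENNReal.inner_le_Lp_mul_Lq Finset.univ (fun i => a (x i)) (fun i => b (x i))
    Real.HolderConjugate.two_two
  simp only [ENNReal.rpow_two] at h
  exact sq_of h

theorem cs_int {a b : V → ℝ≥0∞} (ha : Measurable a) (hb : Measurable b) :
    (∫⁻ p, a p * b p ∂Om) ^ 2 ≤ (∫⁻ p, a p ^ 2 ∂Om) * ∫⁻ p, b p ^ 2 ∂Om := by
  have h := ENNReal.lintegral_mul_le_Lp_mul_Lq Om Real.HolderConjugate.two_two
    ha.aemeasurable hb.aemeasurable
  simp only [ENNReal.rpow_two] at h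
  exact sq_of h

/-- the energy of a particle -/
def e (p : V) : ℝ≥0∞ := ENNReal.ofReal (p o)

/-- its square root -/
def s (p : V) : ℝ≥0∞ := e p ^ (1 / 2 : ℝ)

/-- an integrable weight -/
def ρ (p : V) : ℝ≥0∞ := ENNReal.ofReal (rr p ^ 3)⁻¹

/-- the one particle factor of the bound of the symbol -/
def t (p : V) : ℝ≥0∞ := s p * ρ p

/-- the energy of a configuration -/
def ee (σ : Multiset V) : ℝ≥0∞ := (σ.map e).sum

theorem s_sq (p : V) : s p ^ 2 = e p := by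
  rw [s, ← ENNReal.rpow_two, ← ENNReal.rpow_mul]
  norm_num

theorem m_e : Measurable e := (measurable_pi_apply o).ennreal_ofReal

theorem m_s : Measurable s := m_e.pow_const _

theorem m_ρ : Measurable ρ := (continuous_rr.measurable.pow_const 3).inv.ennreal_ofReal

theorem m_t : Measurable t := m_s.mul m_ρ

theorem ee_cons (p : V) (σ : Multiset V) : ee (p ::ₘ σ) = e p + ee σ := by simp [ee]

theorem ee_erase {p : V} {σ : Multiset V} (h : p ∈ σ) : ee σ = e p + ee (σ.erase p) := by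
  rw [← ee_cons, Multiset.cons_erase h]

theorem w_le (p : V) : (1 + e p) ^ 2 * t p ^ 2 ≤ ρ p := by
  have h1 : 1 + e p ≤ ENNReal.ofReal (rr p) := by
    rw [e, ← ENNReal.ofReal_one]
    refine le_trans (add_le_add le_rfl (ENNReal.ofReal_le_ofReal
      ((le_abs_self _).trans (norm_le_pi_norm p o)))) ?_
    rw [← ENNReal.ofReal_add zero_le_one (norm_nonneg _)]
    exact ENNReal.ofReal_le_ofReal (by unfold rr; linarith)
  have h2 : e p ≤ ENNReal.ofReal (rr p) := le_add_self.trans h1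
  have r := rr_pos p
  have h3 : ENNReal.ofReal (rr p) ^ 3 * ρ p = 1 := by
    rw [ρ, ← ENNReal.ofReal_pow r.le, ← ENNReal.ofReal_mul (by positivity),
      mul_inv_cancel₀ (by positivity), ENNReal.ofReal_one]
  calc (1 + e p) ^ 2 * t p ^ 2 = (1 + e p) ^ 2 * e p * ρ p * ρ p := by
        rw [t, mul_pow, s_sq]; ring
    _ ≤ ENNReal.ofReal (rr p) ^ 2 * ENNReal.ofReal (rr p) * ρ p * ρ p := by gcongr
    _ = ρ p := by rw [← pow_succ, h3, one_mul]

theorem t_le (p : V) : t p ^ 2 ≤ ρ p :=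
  (le_mul_of_one_le_left' (one_le_pow_of_one_le' le_self_add 2)).trans (w_le p)

/-- the integral of the weight -/
def R : ℝ≥0∞ := ∫⁻ p, ρ p ∂Om

theorem R_ne : R ≠ ⊤ := int_rr.lintegral_lt_top.ne

variable {κ : V → V → ℂ} {c : ℝ} {ψ : Wf}

theorem k_le (h : ∀ p q, ‖κ p q‖ * rr (p + q) ^ 6 ≤ c * ‖p‖ * ‖q‖) {p q p' q' : V} (hp : IsNull p)
    (hq : IsNull q) (h1 : ‖p'‖ = ‖p‖) (h2 : ‖q'‖ = ‖q‖) (h3 : rr (p' + q') = rr (p + q)) :
    ‖κ p' q'‖ₑ ≤ ENNReal.ofReal |c| * (s p * t p) * (s q * t q) := by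
  have a1 := Bq.rr_null hp hq
  have a2 := Bq.rr_null hq hp
  rw [add_comm] at a2
  have r1 := rr_pos p
  have r2 := rr_pos q
  have r3 := rr_pos (p + q)
  have n1 := Bq.norm_null hp
  have n2 := Bq.norm_null hq
  have b : ‖κ p' q'‖ ≤ |c| * (p o * (rr p ^ 3)⁻¹) * (q o * (rr q ^ 3)⁻¹) := by
    have k := h p' q'
    rw [h1, h2, h3] at k
    have k1 : ‖κ p' q'‖ * (rr p ^ 3 * rr q ^ 3) ≤ |c| * p o * q o := by
      calc _ ≤ ‖κ p' q'‖ * (rr (p + q) ^ 3 * rr (p + q) ^ 3) := by gcongr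
        _ = ‖κ p' q'‖ * rr (p + q) ^ 6 := by ring
        _ ≤ c * ‖p‖ * ‖q‖ := k
        _ ≤ |c| * ‖p‖ * ‖q‖ := by gcongr; exact le_abs_self c
        _ ≤ _ := by have := hp.2.le; gcongr
    rw [← le_div_iff₀ (by positivity)] at k1
    refine k1.trans_eq ?_
    field_simp
  have f : ∀ u : V, 0 ≤ u o → s u * t u = ENNReal.ofReal (u o * (rr u ^ 3)⁻¹) := fun u hu => by
    rw [t, ← mul_assoc, ← sq, s_sq, e, ρ, ENNReal.ofReal_mul hu]
  have p0 := hp.2.le
  have q0 := hq.2.le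
  rw [f p p0, f q q0, ← ENNReal.ofReal_mul (abs_nonneg c), ← ENNReal.ofReal_mul (by positivity),
    ← ofReal_norm_eq_enorm]
  exact ENNReal.ofReal_le_ofReal b

/-- measurable functions of configurations -/
def MM (Φ : Multiset V → ℝ≥0∞) : Prop := ∀ n, Measurable fun x : Fin n → V => Φ (ms x)

variable {Φ Ψ : Multiset V → ℝ≥0∞}

theorem MM.cons (h : MM Φ) (n : ℕ) : Measurable fun z : V × (Fin n → V) => Φ (z.1 ::ₘ ms z.2) := by
  simp only [← ms_cons]
  exact (h (n + 1)).comp meas_cons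

theorem MM.par (h : MM Φ) (σ : Multiset V) : Measurable fun q => Φ (q ::ₘ σ) := by
  obtain ⟨n, x, rfl⟩ := exists_ms σ
  exact (h.cons n).comp (measurable_id.prodMk measurable_const)

theorem MM.mul (h : MM Φ) (k : MM Ψ) : MM fun σ => Φ σ * Ψ σ := fun n => (h n).mul (k n)

theorem MM.int (h : MM Φ) {a : V → ℝ≥0∞} (ha : Measurable a) :
    MM fun σ => ∫⁻ q, a q * Φ (q ::ₘ σ) ∂Om := fun n =>
  ((ha.comp measurable_fst).mul (h.cons n)).lintegral_prod_left'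

theorem MM.dv (h : MM Φ) {a : V → ℝ≥0∞} (ha : Measurable a) :
    MM fun σ => (σ.map fun p => a p * Φ (σ.erase p)).sum :=
  Cr.m_dv (G := fun p τ => a p * Φ τ) fun n =>
    (ha.comp measurable_fst).mul ((h n).comp measurable_snd)

theorem mm_ee : MM ee := fun n => by
  simp only [ee, sum_ms]
  exact Finset.measurable_sum _ fun i _ => m_e.comp (measurable_pi_apply i)

theorem mm_sq (h : Ms fun _ : Unit => ψ) : MM fun σ => ‖ψ σ‖ₑ ^ 2 := fun n =>
  ((h n).comp (measurable_const (a := ()).prodMk measurable_id)).enorm.pow_const _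

theorem mec_an (h : MM Φ) :
    ∫⁻ c, ∫⁻ q, e q * Φ (q ::ₘ mu c) ∂Om ∂Lam = ∫⁻ c, ee (mu c) * Φ (mu c) ∂Lam := by
  rw [← Cr.mec (G := fun p τ => e p * Φ (p ::ₘ τ)) fun n =>
    (m_e.comp measurable_fst).mul (h.cons n)]
  refine lintegral_congr fun c => ?_
  rw [Multiset.map_congr rfl fun p hp => by rw [Multiset.cons_erase hp],
    Multiset.sum_map_mul_right]
  rfl

theorem mec_cr (h : MM Φ) {a : V → ℝ≥0∞} (ha : Measurable a) :
    ∫⁻ c, ((mu c).map fun p => a p * Φ ((mu c).erase p)).sum ∂Lam =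
      (∫⁻ p, a p ∂Om) * ∫⁻ c, Φ (mu c) ∂Lam :=
  (Cr.mec (G := fun p τ => a p * Φ τ) fun n =>
    (ha.comp measurable_fst).mul ((h n).comp measurable_snd)).trans
    ((lintegral_congr fun _ => lintegral_mul_const _ ha).trans
      (lintegral_const_mul _ (Cr.meas_mu h)))

/-- the square of the graph norm -/
def ne (ψ : Wf) : ℝ≥0∞ := ∫⁻ c, (1 + ee (mu c)) ^ 2 * ‖ψ (mu c)‖ₑ ^ 2 ∂Lam

theorem an_step {b : V → ℝ≥0∞} (hb : Measurable b) :
    (∫⁻ q, s q * t q * b q ∂Om) ^ 2 ≤ R * ∫⁻ q, e q * b q ^ 2 ∂Om := by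
  have h := cs_int (b := fun q => s q * b q) m_t (m_s.mul hb)
  simp only [mul_pow, s_sq] at h
  refine le_trans (le_of_eq ?_) (h.trans (mul_le_mul_left (lintegral_mono t_le) _))
  congr 1
  exact lintegral_congr fun q => by ring

theorem aa_pt (h : ∀ p q, ‖κ p q‖ * rr (p + q) ^ 6 ≤ c * ‖p‖ * ‖q‖) (m : Ms fun _ : Unit => ψ)
    (σ : Multiset V) : ‖it (fun q => it fun q' => κ (-q) (-q') • ψ) σ‖ₑ ^ 2 ≤
      ENNReal.ofReal |c| ^ 2 * R * R *
        ∫⁻ q, e q * ∫⁻ q', e q' * ‖ψ (q' ::ₘ q ::ₘ σ)‖ₑ ^ 2 ∂Om ∂Om := by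
  have m1 : MM fun τ => ‖ψ τ‖ₑ := fun n =>
    ((m n).comp (measurable_const (a := ()).prodMk measurable_id)).enorm
  have m2 : MM fun τ => ∫⁻ q', s q' * t q' * ‖ψ (q' ::ₘ τ)‖ₑ ∂Om := m1.int (m_s.mul m_t)
  have k1 : ‖it (fun q => it fun q' => κ (-q) (-q') • ψ) σ‖ₑ ≤ ENNReal.ofReal |c| *
      ∫⁻ q, s q * t q * ∫⁻ q', s q' * t q' * ‖ψ (q' ::ₘ q ::ₘ σ)‖ₑ ∂Om ∂Om := by
    refine (enorm_integral_le_lintegral_enorm _).trans ?_
    rw [← lintegral_const_mul' _ _ ENNReal.ofReal_ne_top]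
    refine lintegral_mono_ae ?_
    filter_upwards [om_ae] with q hq
    refine (enorm_integral_le_lintegral_enorm _).trans ?_
    rw [← mul_assoc, ← lintegral_const_mul _ (f := fun q' => s q' * t q' * ‖ψ (q' ::ₘ q ::ₘ σ)‖ₑ)
      ((m_s.mul m_t).mul (m1.par _))]
    refine lintegral_mono_ae ?_
    filter_upwards [om_ae] with q' hq'
    rw [Pi.smul_apply, smul_eq_mul, enorm_mul, ← mul_assoc]
    exact mul_le_mul_left (k_le h ⟨hq.2, hq.1⟩ ⟨hq'.2, hq'.1⟩ (norm_neg _) (norm_neg _)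
      (by rw [← neg_add, rr_neg])) _
  refine (pow_le_pow_left' k1 2).trans ?_
  rw [mul_pow, mul_assoc, mul_assoc]
  refine mul_le_mul_right ((an_step (m2.par σ)).trans (mul_le_mul_right ?_ _)) _
  rw [← lintegral_const_mul' _ _ R_ne]
  refine lintegral_mono fun q => ?_
  rw [mul_left_comm]
  exact mul_le_mul_right (an_step (m1.par _)) _

theorem aa_nn (h : ∀ p q, ‖κ p q‖ * rr (p + q) ^ 6 ≤ c * ‖p‖ * ‖q‖) (m : Ms fun _ : Unit => ψ) :
    Cr.nn (it fun q => it fun q' => κ (-q) (-q') • ψ) ≤ ENNReal.ofReal |c| ^ 2 * R * R * ne ψ := by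
  unfold Cr.nn
  simp only [ENNReal.rpow_two]
  refine (lintegral_mono fun c => aa_pt h m _).trans ?_
  rw [lintegral_const_mul' _ _ (ENNReal.mul_ne_top (ENNReal.mul_ne_top
    (ENNReal.pow_ne_top ENNReal.ofReal_ne_top) R_ne) R_ne)]
  refine mul_le_mul_right ?_ _
  rw [mec_an ((mm_sq m).int m_e)]
  calc _ ≤ ∫⁻ c, ∫⁻ q, e q * (ee (q ::ₘ mu c) * ‖ψ (q ::ₘ mu c)‖ₑ ^ 2) ∂Om ∂Lam := by
        refine lintegral_mono fun c => ?_
        rw [← lintegral_const_mul _ (f := fun q => e q * ‖ψ (q ::ₘ mu c)‖ₑ ^ 2)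
          (m_e.mul ((mm_sq m).par _))]
        refine lintegral_mono fun q => ?_
        rw [mul_left_comm, ee_cons]
        gcongr
        exact le_add_self
    _ = _ := mec_an (mm_ee.mul (mm_sq m))
    _ ≤ ne ψ := by
        refine lintegral_mono fun c => ?_
        rw [← mul_assoc, ← sq]
        gcongr
        exact le_add_self

theorem cr_step (σ : Multiset V) (b : V → ℝ≥0∞) :
    (σ.map fun p => s p * t p * b p).sum ^ 2 ≤ ee σ * (σ.map fun p => t p ^ 2 * b p ^ 2).sum := by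
  have h := cs_sum σ s fun p => t p * b p
  simp only [mul_pow, s_sq, ← mul_assoc] at h
  exact h

theorem enorm_dv (F : V → Wf) (σ : Multiset V) :
    ‖dv F σ‖ₑ ≤ (σ.map fun p => ‖F p (σ.erase p)‖ₑ).sum := by
  obtain ⟨n, x, rfl⟩ := exists_ms σ
  rw [dv, sum_ms, sum_ms]
  exact enorm_sum_le _ _

theorem cc_pt (h : ∀ p q, ‖κ p q‖ * rr (p + q) ^ 6 ≤ c * ‖p‖ * ‖q‖) (σ : Multiset V) :
    ‖dv (fun p => dv fun p' => (ci p * ci p' * κ p p') • ψ) σ‖ₑ ^ 2 ≤ ENNReal.ofReal |c| ^ 2 *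
      (σ.map fun p => ρ p * ((σ.erase p).map fun p' => ρ p' *
        ((1 + ee ((σ.erase p).erase p')) ^ 2 * ‖ψ ((σ.erase p).erase p')‖ₑ ^ 2)).sum).sum := by
  have k1 : ‖dv (fun p => dv fun p' => (ci p * ci p' * κ p p') • ψ) σ‖ₑ ≤ ENNReal.ofReal |c| *
      (σ.map fun p => s p * t p * ((σ.erase p).map fun p' =>
        s p' * t p' * ‖ψ ((σ.erase p).erase p')‖ₑ).sum).sum := by
    refine (enorm_dv _ _).trans ?_
    rw [← Multiset.sum_map_mul_left]
    refine Multiset.sum_map_le_sum_map _ _ fun p _ => (enorm_dv _ _).trans ?_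
    rw [← mul_assoc, ← Multiset.sum_map_mul_left]
    refine Multiset.sum_map_le_sum_map _ _ fun p' _ => ?_
    rw [Pi.smul_apply, smul_eq_mul, enorm_mul, ← mul_assoc]
    refine mul_le_mul_left ?_ _
    unfold ci
    split_ifs with a b
    · simpa using k_le h a b rfl rfl rfl
    all_goals simp
  refine (pow_le_pow_left' k1 2).trans ?_
  rw [mul_pow]
  refine mul_le_mul_right ((cr_step _ _).trans ?_) _
  rw [← Multiset.sum_map_mul_left]
  refine Multiset.sum_map_le_sum_map _ _ fun p hp => ?_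
  refine (mul_le_mul_right (mul_le_mul_right (cr_step _ _) _) _).trans ?_
  rw [← Multiset.sum_map_mul_left, ← Multiset.sum_map_mul_left, ← Multiset.sum_map_mul_left,
    ← Multiset.sum_map_mul_left]
  refine Multiset.sum_map_le_sum_map _ _ fun p' hp' => ?_
  set τ := (σ.erase p).erase p'
  have b1 : ee σ ≤ (1 + e p) * (1 + e p') * (1 + ee τ) := by
    rw [ee_erase hp, ee_erase hp']
    have : (1 + e p) * (1 + e p') * (1 + ee τ) = e p + (e p' + ee τ) +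
      (1 + e p * e p' + e p * ee τ + e p' * ee τ + e p * e p' * ee τ) := by ring
    rw [this]
    exact le_self_add
  have b2 : ee (σ.erase p) ≤ (1 + e p) * (1 + e p') * (1 + ee τ) :=
    le_trans (by rw [ee_erase hp]; exact le_add_self) b1
  calc ee σ * (t p ^ 2 * (ee (σ.erase p) * (t p' ^ 2 * ‖ψ τ‖ₑ ^ 2)))
      ≤ ((1 + e p) * (1 + e p') * (1 + ee τ)) * (t p ^ 2 *
        (((1 + e p) * (1 + e p') * (1 + ee τ)) * (t p' ^ 2 * ‖ψ τ‖ₑ ^ 2))) := by gcongr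
    _ = ((1 + e p) ^ 2 * t p ^ 2) * (((1 + e p') ^ 2 * t p' ^ 2) *
        ((1 + ee τ) ^ 2 * ‖ψ τ‖ₑ ^ 2)) := by ring
    _ ≤ _ := mul_le_mul' (w_le p) (mul_le_mul_left (w_le p') _)

theorem cc_nn (h : ∀ p q, ‖κ p q‖ * rr (p + q) ^ 6 ≤ c * ‖p‖ * ‖q‖) (m : Ms fun _ : Unit => ψ) :
    Cr.nn (dv fun p => dv fun p' => (ci p * ci p' * κ p p') • ψ) ≤
      ENNReal.ofReal |c| ^ 2 * R * R * ne ψ := by
  have m1 : MM fun τ => (1 + ee τ) ^ 2 * ‖ψ τ‖ₑ ^ 2 := fun n =>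
    (((mm_ee n).const_add 1).pow_const 2).mul (mm_sq m n)
  unfold Cr.nn
  simp only [ENNReal.rpow_two]
  refine (lintegral_mono fun c => cc_pt h _).trans (le_of_eq ?_)
  rw [lintegral_const_mul' _ _ (ENNReal.pow_ne_top ENNReal.ofReal_ne_top),
    mec_cr (m1.dv m_ρ) m_ρ, mec_cr m1 m_ρ, mul_assoc, mul_assoc]
  rfl

theorem en_le (σ : Multiset V) : |1 + En σ| ≤ wt σ := by
  induction σ using Multiset.induction_on with
  | empty => simp [En_zero, wt_zero]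
  | cons p σ ih =>
    rw [En_cons, wt_cons, add_left_comm]
    have h1 : |p o| ≤ ‖p‖ := norm_le_pi_norm p o
    have h2 := abs_add_le (p o) (1 + En σ)
    have h3 := wt_one σ
    unfold rr
    nlinarith [norm_nonneg p]

theorem ne_eq (h : Nice ψ) : ne ψ = ENNReal.ofReal (NE ψ ^ 2) := by
  have mE : Measurable fun c : Cf => En (mu c) := Cr.meas_mu (G := En) fun n => by
    simp only [En, sum_ms]
    exact Finset.measurable_sum _ fun i _ => (measurable_pi_apply o).comp (measurable_pi_apply i)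
  obtain ⟨C, b⟩ := h.2 3
  have i : Integrable (fun c => (1 + En (mu c)) ^ 2 * ‖ψ (mu c)‖ ^ 2) Lam := by
    refine (int_wt.const_mul (C ^ 2)).mono' (((mE.const_add 1).pow_const 2).mul
      (h.1.meas1.norm.pow_const 2)).aestronglyMeasurable (ae_of_all _ fun c => ?_)
    have w := wt_pos (mu c)
    have w1 := wt_one (mu c)
    have a1 : (1 + En (mu c)) ^ 2 ≤ wt (mu c) ^ 2 := by
      rw [← sq_abs]
      exact pow_le_pow_left₀ (abs_nonneg _) (en_le _) 2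
    have a2 : (‖ψ (mu c)‖ * wt (mu c) ^ 3) ^ 2 ≤ C ^ 2 :=
      pow_le_pow_left₀ (by positivity) (b _) 2
    rw [Real.norm_of_nonneg (by positivity), ← div_eq_mul_inv, le_div_iff₀ (by positivity)]
    calc _ ≤ wt (mu c) ^ 2 * ‖ψ (mu c)‖ ^ 2 * wt (mu c) ^ 4 := by gcongr; norm_num
      _ = (‖ψ (mu c)‖ * wt (mu c) ^ 3) ^ 2 := by ring
      _ ≤ _ := a2
  rw [NE, Real.sq_sqrt (integral_nonneg fun c => by positivity),
    ofReal_integral_eq_lintegral_ofReal i (ae_of_all _ fun c => by positivity)]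
  refine lintegral_congr_ae ?_
  filter_upwards [ae_null] with c hc
  have a0 : 0 ≤ En (mu c) := by
    rw [En, mu, sum_ms]
    exact Finset.sum_nonneg fun i _ => (hc i).1.le
  have a1 : ee (mu c) = ENNReal.ofReal (En (mu c)) := by
    rw [ee, En, mu, sum_ms, sum_ms, ENNReal.ofReal_sum_of_nonneg fun i _ => (hc i).1.le]
    rfl
  rw [a1, ENNReal.ofReal_mul (sq_nonneg _), ENNReal.ofReal_pow (by positivity),
    ENNReal.ofReal_pow (norm_nonneg _), ofReal_norm_eq_enorm, ENNReal.ofReal_add zero_le_one a0,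
    ENNReal.ofReal_one]

/-- from the bound for the squares to the bound for the norms -/
theorem fin {K : ℝ≥0∞} (hK : K ≠ ⊤) {χ : Wf} (h : Nice ψ) (b : Cr.nn χ ≤ K * ne ψ) :
    ‖toL χ‖ ≤ √K.toReal * NE ψ := by
  have n0 := NE_nn ψ
  by_cases j : MemLp (fun c => χ (mu c)) 2 Lam
  swap
  · rw [toL, dif_neg j, norm_zero]
    positivity
  rw [ne_eq h] at b
  have := ENNReal.toReal_mono (ENNReal.mul_ne_top hK ENNReal.ofReal_ne_top) b
  rw [ENNReal.toReal_mul, ENNReal.toReal_ofReal (sq_nonneg _)] at this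
  rw [(Cr.norm_toL j).1, ← Real.sqrt_eq_rpow]
  refine (Real.sqrt_le_sqrt this).trans_eq ?_
  rw [Real.sqrt_mul ENNReal.toReal_nonneg, Real.sqrt_sq n0]

theorem K_ne (c : ℝ) : ENNReal.ofReal |c| ^ 2 * R * R ≠ ⊤ :=
  ENNReal.mul_ne_top (ENNReal.mul_ne_top (ENNReal.pow_ne_top ENNReal.ofReal_ne_top) R_ne) R_ne

end Two

/-- **the energy bound for the pair creation part** -/
theorem eb_cc {κ : V → V → ℂ} (h : Kq κ) : ∃ C, ∀ ψ, Nice ψ →
    ‖toL (dv fun p => dv fun p' => (ci p * ci p' * κ p p') • ψ)‖ ≤ C * NE ψ :=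
  (h.2 6).elim fun c b => ⟨_, fun _ n => Two.fin (Two.K_ne c) n (Two.cc_nn b n.1)⟩

/-- **the energy bound for the pair annihilation part** -/
theorem eb_aa {κ : V → V → ℂ} (h : Kq κ) : ∃ C, ∀ ψ, Nice ψ →
    ‖toL (it fun q => it fun q' => κ (-q) (-q') • ψ)‖ ≤ C * NE ψ :=
  (h.2 6).elim fun c b => ⟨_, fun _ n => Two.fin (Two.K_ne c) n (Two.aa_nn b n.1)⟩

end

end Vale.Agent.P352W.Eb
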