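import Vale.Agent.P352W.Eb.Ca
import Vale.Agent.P352W.Eb.Two
import Vale.Agent.P352W.Fk.Cont

/-! # P352W EB3: the energy bound for the stress tensor (helper95) -/

set_option linter.all false

open MeasureTheory

namespace Vale.Agent.P352W.Eb

open Vale.Agent.P352.GF Vale.Agent.P352W.Cn Vale.Agent.P352W.Fk

variable {κ : V → V → ℂ} {f : Fn}

theorem eb_qq (k : Ks κ) (h : Kq κ) : ∃ C : ℝ, ∀ ψ, Nice ψ → ‖toL (qq κ ψ)‖ ≤ C * NE ψ := by
  obtain ⟨a, ha⟩ := eb_cc h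
  obtain ⟨b, hb⟩ := eb_ca h
  obtain ⟨c, hc⟩ := eb_aa h
  refine ⟨a + b + c, fun ψ n => ?_⟩
  have n1 : Nice (dv fun p => dv fun p' => (ci p * ci p' * κ p p') • ψ) :=
    ⟨Ms.dv (F := fun (_ : Unit) p => dv fun p' => (ci p * ci p' * κ p p') • ψ)
      ((ms_cc k n).comp measurable_snd), fun N => (k.2 (2 * (N + 4))).elim fun _ u =>
      (n.2 (N + 2)).elim fun _ v => ⟨_, bd_cc u v⟩⟩
  have n2 : Nice (dv fun p => it fun q => (ci p * (κ p (-q) + κ (-q) p)) • ψ) :=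
    ⟨Ms.dv (F := fun (_ : Unit) p => it fun q => (ci p * (κ p (-q) + κ (-q) p)) • ψ)
      ((ms_ca k n).comp measurable_snd), fun N => (k.2 (N + 3)).elim fun _ u =>
      (n.2 (2 * N + 9)).elim fun _ v => ⟨_, bd_ca u v⟩⟩
  have n3 : Nice (it fun q => it fun q' => κ (-q) (-q') • ψ) :=
    ⟨Ms.it (F := fun (_ : Unit) q => it fun q' => κ (-q) (-q') • ψ)
      ((ms_aa k n).comp measurable_snd), fun N => (k.2 0).elim fun _ u =>
      (n.2 (N + 10)).elim fun _ v => ⟨_, bd_aa u v⟩⟩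
  rw [qq, toL_add (n1.add n2) n3, toL_add n1 n2]
  refine norm_add₃_le.trans ?_
  linarith [ha ψ n, hb ψ n, hc ψ n]

theorem kq_kT (m n : Ix) (hf : IsTest f) : Kq (kT m n f) := by
  refine ⟨(Ct.ks_kT m n hf).1, fun N => ?_⟩
  obtain ⟨c, b⟩ := (Ct.hs_ft hf).2 N
  refine ⟨|(2 * (2 * Real.pi) ^ 3)⁻¹| * 6 * c, fun p q => ?_⟩
  have r := rr_pos (p + q)
  rw [kT, norm_mul, Complex.norm_real, Real.norm_eq_abs, abs_mul, abs_neg, mul_assoc]
  refine (mul_le_mul (mul_le_mul_of_nonneg_left (Ct.tk_le m n p q) (abs_nonneg _)) (b (p + q))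
    (by positivity) (by positivity)).trans_eq ?_
  ring

/-- **the energy bound for the stress tensor** (hypothesis `h2` of `eb_of`) -/
theorem eb_T (m n : Ix) (f : Fn) (hf : IsTest f) :
    ∃ C : ℝ, ∀ ψ, Nice ψ → ‖toL (qq (kT m n f) ψ)‖ ≤ C * NE ψ :=
  eb_qq (Ct.ks_kT m n hf) (kq_kT m n hf)

end Vale.Agent.P352W.Eb
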